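import Mathlib.Combinatorics.Matroid.Closure
import Mathlib.ModelTheory.Semantics
import Mathlib.SetTheory.ZFC.Cardinal
import Mathlib.SetTheory.Ordinal.Basic

/-!
Abstract elementary classes of structures whose universes are sets of the von Neumann universe,
categoricity, pregeometries of strong substructures, the logic `L_{l⁺,ω}` with cardinality
quantifiers, omitting types.
-/

universe u w

open FirstOrder Cardinal

namespace Vale.Agent.N307Z

/-- A structure in the vocabulary `L` whose universe is the set `A`. -/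
structure Str (L : Language.{u, u}) where
  A : ZFSet.{u}
  str : L.Structure A

variable {L : Language.{u, u}}

instance (M : Str L) : L.Structure M.A := M.str

/-- `M` is a substructure of `N`: the inclusion of the universes is an embedding. -/
def Sub (M N : Str L) : Prop :=
  ∃ f : M.A ↪[L] N.A, ∀ x, (f x).1 = x.1

/-- An abstract elementary class: a class `mem` of structures with a relation `le`. -/
structure AEC (L : Language.{u, u}) where
  mem : Str L → Prop
  le : Str L → Str L → Prop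
  /-- `le` is an order on the class -/
  le_mem : ∀ M N, le M N → mem M ∧ mem N
  le_refl : ∀ M, mem M → le M M
  le_trans : ∀ M N P, le M N → le N P → le M P
  le_antisymm : ∀ M N, le M N → le N M → M = N
  /-- the class is closed under isomorphism -/
  mem_iso : ∀ M M' : Str L, (M.A ≃[L] M'.A) → mem M → mem M'
  /-- the order is closed under isomorphism: `f` is the restriction of `g` to `M` -/
  le_iso : ∀ (M N M' N' : Str L) (f : M.A ≃[L] M'.A) (g : N.A ≃[L] N'.A),
    (∀ (x : M.A) (y : N.A), x.1 = y.1 → (f x).1 = (g y).1) → le M N → le M' N'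
  le_sub : ∀ M N, le M N → Sub M N
  coherence : ∀ M₀ M₁ M₂, Sub M₀ M₁ → le M₀ M₂ → le M₁ M₂ → le M₀ M₁
  /-- `U` is the union of the increasing chain `(M i)_{i < δ}` -/
  chains : ∀ δ : Ordinal.{u}, 0 < δ → ∀ (M : Set.Iio δ → Str L) (U : Str L),
    (∀ i j, i ≤ j → le (M i) (M j)) → (∀ i, Sub (M i) U) → (∀ x ∈ U.A, ∃ i, x ∈ (M i).A) →
    mem U ∧ (∀ i, le (M i) U) ∧ ∀ N, (∀ i, le (M i) N) → le U N
  /-- Löwenheim-Skolem -/
  exists_ls : ∃ ℓ : Cardinal.{u}, L.card + ℵ₀ ≤ ℓ ∧
    ∀ M, mem M → ∀ X ⊆ M.A, ∃ N, le N M ∧ X ⊆ N.A ∧ N.A.card ≤ X.card + ℓ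

/-- The Löwenheim-Skolem number `LS(K)`: the least cardinal as in the Löwenheim-Skolem axiom. -/
noncomputable def AEC.LS (K : AEC L) : Cardinal.{u} :=
  sInf {ℓ | L.card + ℵ₀ ≤ ℓ ∧
    ∀ M, K.mem M → ∀ X ⊆ M.A, ∃ N, K.le N M ∧ X ⊆ N.A ∧ N.A.card ≤ X.card + ℓ}

/-- The class `C` of structures is categorical in `κ`. -/
def Categorical (C : Str L → Prop) (κ : Cardinal.{u}) : Prop :=
  (∃ M, C M ∧ M.A.card = κ) ∧
    ∀ M N, C M → C N → M.A.card = κ → N.A.card = κ → Nonempty (M.A ≃[L] N.A)

/-- The trichotomy above `μ`: the class `C` has no member of size at least `μ`, or it is categorical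
in every `κ ≥ μ`, or it has two non-isomorphic members of size `κ` for every `κ ≥ μ`. -/
def Trichotomy (C : Str L → Prop) (μ : Cardinal.{u}) : Prop :=
  (∀ M, C M → M.A.card < μ) ∨ (∀ κ, μ ≤ κ → Categorical C κ) ∨
    ∀ κ, μ ≤ κ → ∃ M N, C M ∧ C N ∧ M.A.card = κ ∧ N.A.card = κ ∧ IsEmpty (M.A ≃[L] N.A)

/-- The structure of Baldwin and Lachlan of `N` over `P`: a finitary matroid (a pregeometry) on a
subset `m.E` of `N` whose flats are the traces on `m.E` of the `V ≤_K N` which contain `P`; there is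
no Vaughtian pair among these `V`; the bases have the size of `N`; and every bijection between two
bases extends to an automorphism of `N` which fixes `P` pointwise. -/
def Geometric (K : AEC L) (P N : Str L) : Prop :=
  ∃ m : Matroid N.A, m.Finitary ∧
    (∀ F, m.IsFlat F ↔ ∃ V, K.le V N ∧ P.A ⊆ V.A ∧ F = {x ∈ m.E | x.1 ∈ V.A}) ∧
    (∀ V W, K.le V N → K.le W N → P.A ⊆ V.A → V.A ⊆ W.A →
      (∀ x ∈ m.E, x.1 ∈ W.A → x.1 ∈ V.A) → V.A = W.A) ∧
    (∀ B, m.IsBase B → #B = #N.A) ∧
    ∀ B B', m.IsBase B → m.IsBase B' → ∀ e : B ≃ B',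
      ∃ σ : N.A ≃[L] N.A, (∀ x, x.1 ∈ P.A → σ x = x) ∧ ∀ x : B, σ x = e x

/-- The formulas, with free variables among `x₀, …, x_{n-1}`, of the logic `L_{l⁺,ω}` with the
quantifiers `there are at least θ many x`, `θ ≤ l` (for `θ = 1` this is `∃ x`). -/
inductive Fml (L : Language.{u, u}) (l : Cardinal.{u}) : ℕ → Type (u + 1)
  | eq {n : ℕ} (s t : L.Term (Fin n)) : Fml L l n
  | rel {n k : ℕ} (r : L.Relations k) (t : Fin k → L.Term (Fin n)) : Fml L l n
  | not {n : ℕ} (φ : Fml L l n) : Fml L l n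
  | and {n : ℕ} (ι : Type u) (h : #ι ≤ l) (φ : ι → Fml L l n) : Fml L l n
  | many {n : ℕ} (ι : Type u) (h : #ι ≤ l) (φ : Fml L l (n + 1)) : Fml L l n

/-- Satisfaction, by recursion on the formula (the clauses for `eq`, `rel`, `not`, `and`, `many`);
`many ι h φ` holds if `φ` has at least `|ι|` witnesses for its last variable. -/
def Fml.Sat {l : Cardinal.{u}} (M : Type w) [L.Structure M] {n : ℕ} (φ : Fml L l n) :
    (Fin n → M) → Prop :=
  Fml.rec (motive := fun n _ => (Fin n → M) → Prop)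
    (fun s t v => s.realize v = t.realize v)
    (fun r t v => Language.Structure.RelMap r fun i => (t i).realize v)
    (fun _ sat v => ¬sat v)
    (fun _ _ _ sat v => ∀ i, sat i v)
    (fun ι _ _ sat v => ∃ x : ι → M, Function.Injective x ∧ ∀ i, sat (Fin.snoc v (x i))) φ

/-- `M` omits every type of `Γ`; a type is a set of first-order formulas in `n` variables. -/
def Omits (M : Str L) (Γ : Set (Σ n : ℕ, Set (L.BoundedFormula Empty n))) : Prop :=
  ∀ p ∈ Γ, ¬∃ v : Fin p.1 → M.A, ∀ φ ∈ p.2, φ.Realize default v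

end Vale.Agent.N307Z
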