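import Mathlib.SetTheory.ZFC.Ordinal
import Vale.Agent.N307Z.Defs
import Vale.Agent.N307.Final

/-!
From classes of structures on sets to classes of structures on types.
-/

universe u v w w'

open FirstOrder Cardinal Set Function Language

namespace Vale.Agent.N307Z

variable {L : Language.{u, u}}

theorem exists_emb {M : Type v} {M' : Type w} {N : Type w'} [L.Structure M] [L.Structure M']
    [L.Structure N] (k : M ↪[L] N) (e : M' ↪[L] N) (h : ∀ x, ∃ y, k y = e x) :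
    ∃ g : M' ↪[L] M, ∀ x, k (g x) = e x :=
  ⟨k.equivRange.symm.toEmbedding.comp (e.codRestrict k.toHom.range h), fun x => by
    rw [← Embedding.equivRange_apply]
    exact congrArg Subtype.val (k.equivRange.apply_symm_apply _)⟩

theorem exists_equiv {M : Type v} {M' : Type w} {N : Type w'} [L.Structure M] [L.Structure M']
    [L.Structure N] (k : M ↪[L] N) (e : M' ↪[L] N) (h : ∀ x, ∃ y, k y = e x)
    (h' : ∀ y, ∃ x, k y = e x) : ∃ g : M' ≃[L] M, ∀ x, k (g x) = e x := by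
  obtain ⟨g, hg⟩ := exists_emb k e h
  have hs : Surjective g := fun y => by
    obtain ⟨x, hx⟩ := h' y
    exact ⟨x, k.injective ((hg x).trans hx.symm)⟩
  exact ⟨⟨_root_.Equiv.ofBijective g ⟨g.injective, hs⟩, fun f x => g.map_fun f x,
    fun r x => g.map_rel r x⟩, hg⟩

/-- A structure on a type is isomorphic to a structure on a set, along any injective coding. -/
theorem exists_code {M : Type u} [L.Structure M] {c : M → ZFSet.{u}} (hc : Injective c) :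
    ∃ (A : Str L) (a : M ≃[L] A.A), ∀ x, (a x).1 = c x := by
  let e : M ≃ ZFSet.range c := _root_.Equiv.ofBijective (fun x => ⟨c x, ZFSet.mem_range_self x⟩)
    ⟨fun x y h => hc (congrArg Subtype.val h), fun y => by
      obtain ⟨x, hx⟩ := ZFSet.mem_range.1 y.2
      exact ⟨x, Subtype.ext hx⟩⟩
  exact ⟨⟨ZFSet.range c, e.inducedStructure⟩, e.inducedStructureEquiv, fun _ => rfl⟩

theorem exists_code' (M : Type u) [L.Structure M] : ∃ A : Str L, Nonempty (M ≃[L] A.A) := by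
  obtain ⟨A, a, -⟩ := exists_code (L := L) (M := M)
    (c := fun x => (Ordinal.typein WellOrderingRel x).toZFSet)
    (Ordinal.toZFSet_injective.comp (Ordinal.typein_injective _))
  exact ⟨A, ⟨a⟩⟩

theorem exists_sub_code {M N : Type u} [L.Structure M] [L.Structure N] (f : M ↪[L] N) {B : Str L}
    (b : N ≃[L] B.A) : ∃ (A : Str L) (a : M ≃[L] A.A), ∀ x, (a x).1 = (b (f x)).1 :=
  exists_code fun _ _ h => f.injective (b.injective (Subtype.ext h))

theorem exists_decode (A : Str L) :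
    ∃ (M : Type u) (_ : L.Structure M), Nonempty (M ≃[L] A.A) := by
  let s : L.Structure (Shrink.{u} A.A) := (equivShrink.{u} A.A).inducedStructure
  exact ⟨Shrink.{u} A.A, s, ⟨(equivShrink.{u} A.A).inducedStructureEquiv.symm⟩⟩

theorem card_eq {M : Type u} [L.Structure M] {A : Str L} (a : M ≃[L] A.A) : A.A.card = #M := by
  rw [← Cardinal.lift_inj.{u, u + 1}, ← ZFSet.cardinalMk_coe_sort]
  have h := Cardinal.lift_mk_eq'.2 ⟨a.toEquiv⟩
  rw [Cardinal.lift_id'.{u, u + 1}] at h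
  exact h.symm

theorem sub_of {M N : Type u} [L.Structure M] [L.Structure N] (f : M ↪[L] N) {A B : Str L}
    (a : M ≃[L] A.A) (b : N ≃[L] B.A) (h : ∀ x, (a x).1 = (b (f x)).1) : Sub A B :=
  ⟨b.toEmbedding.comp (f.comp a.symm.toEmbedding), fun x => by
    have h1 := h (a.symm x)
    rw [a.apply_symm_apply] at h1
    exact h1.symm⟩

namespace AEC

variable (K : AEC L)

/-- Strong embeddings between structures on types. -/
def E {M N : Type u} [L.Structure M] [L.Structure N] (f : M ↪[L] N) : Prop :=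
  ∃ (A B : Str L) (a : M ≃[L] A.A) (b : N ≃[L] B.A), K.le A B ∧ ∀ x, (a x).1 = (b (f x)).1

variable {K} {M N M' N' : Type u} [L.Structure M] [L.Structure N] [L.Structure M'] [L.Structure N']

theorem E.le {f : M ↪[L] N} (h : K.E f) {A B : Str L} (a : M ≃[L] A.A) (b : N ≃[L] B.A)
    (hab : ∀ x, (a x).1 = (b (f x)).1) : K.le A B := by
  obtain ⟨A', B', a', b', h1, h2⟩ := h
  refine K.le_iso A' B' A B (a.comp a'.symm) (b.comp b'.symm) (fun x y hxy => ?_) h1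
  obtain ⟨x, rfl⟩ := a'.surjective x
  obtain rfl : y = b' (f x) := Subtype.ext (hxy.symm.trans (h2 x))
  change (a (a'.symm (a' x))).1 = (b (b'.symm (b' (f x)))).1
  rw [a'.symm_apply_apply, b'.symm_apply_apply, hab]

theorem E.congr {f : M ↪[L] N} (h : K.E f) (j : N ≃[L] N') (f' : M' ↪[L] N')
    (h1 : ∀ x, ∃ y, j (f y) = f' x) (h2 : ∀ y, ∃ x, j (f y) = f' x) : K.E f' := by
  obtain ⟨A, B, a, b, h3, h4⟩ := h
  obtain ⟨g, hg⟩ := exists_equiv (j.toEmbedding.comp f) f' h1 h2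
  refine ⟨A, B, a.comp g, b.comp j.symm, h3, fun x => ?_⟩
  change (a (g x)).1 = (b (j.symm (f' x))).1
  rw [← hg x, h4]
  change _ = (b (j.symm (j (f (g x))))).1
  rw [j.symm_apply_apply]

theorem E.incl {S T : L.Substructure N} (hST : S ≤ T)
    (h : K.E (S.comap T.subtype.toHom).subtype) : K.E (Substructure.inclusion hST) :=
  h.congr (Language.Equiv.refl L T) _ (fun x => ⟨⟨⟨x, hST x.2⟩, x.2⟩, rfl⟩)
    fun y => ⟨⟨y.1.1, y.2⟩, rfl⟩

theorem chain {δ : Ordinal.{u}} (hδ : 0 < δ) (S : Set.Iio δ → L.Substructure N)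
    (h : ∀ i j, i ≤ j → S i ≤ S j ∧ K.E ((S i).comap (S j).subtype.toHom).subtype)
    (U : L.Substructure N) (hU : ∀ x : N, x ∈ U ↔ ∃ i, x ∈ S i) {B : Str L} (b : N ≃[L] B.A) :
    ∃ (A : Set.Iio δ → Str L) (a : ∀ i, S i ≃[L] (A i).A) (C : Str L) (c : U ≃[L] C.A),
      (∀ i x, (a i x).1 = (b x).1) ∧ (∀ x, (c x).1 = (b x).1) ∧
        K.mem C ∧ (∀ i, K.le (A i) C) ∧ ∀ D, (∀ i, K.le (A i) D) → K.le C D := by
  choose A a ha using fun i => exists_sub_code (S i).subtype b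
  obtain ⟨C, c, hc⟩ := exists_sub_code U.subtype b
  refine ⟨A, a, C, c, ha, hc, K.chains δ hδ A C
    (fun i j hij => (E.incl (h i j hij).1 (h i j hij).2).le (a i) (a j) fun x => ?_)
    (fun i => sub_of (Substructure.inclusion fun x hx => (hU x).2 ⟨i, hx⟩) (a i) c fun x => ?_)
    fun x hx => ?_⟩
  · rw [ha, ha]
    rfl
  · rw [ha, hc]
    rfl
  · obtain ⟨y, hy⟩ := c.surjective ⟨x, hx⟩
    obtain ⟨i, hi⟩ := (hU y).1 y.2
    refine ⟨i, ?_⟩
    have h1 : (a i ⟨y, hi⟩).1 = x := by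
      rw [ha]
      exact (hc y).symm.trans (congrArg Subtype.val hy)
    exact h1 ▸ (a i ⟨y, hi⟩).2

theorem ls {ℓ : Cardinal.{u}}
    (h : ∀ M, K.mem M → ∀ X ⊆ M.A, ∃ N, K.le N M ∧ X ⊆ N.A ∧ N.A.card ≤ X.card + ℓ)
    {B : Str L} (hB : K.mem B) (b : M ≃[L] B.A) (X : Set M) :
    ∃ S : L.Substructure M, K.E S.subtype ∧ X ⊆ S ∧ #S ≤ #X + ℓ := by
  obtain ⟨A, h1, h2, h3⟩ := h B hB (ZFSet.range fun x : X => (b x).1) fun y hy => by
    obtain ⟨x, rfl⟩ := ZFSet.mem_range.1 hy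
    exact (b x).2
  obtain ⟨f, hf⟩ := K.le_sub A B h1
  let g : A.A ↪[L] M := b.symm.toEmbedding.comp f
  have hg : ∀ y, (b (g y)).1 = y.1 := fun y => by
    change (b (b.symm (f y))).1 = _
    rw [b.apply_symm_apply, hf]
  refine ⟨g.toHom.range, ⟨A, B, g.equivRange.symm, b, h1, fun x => ?_⟩, fun x hx => ?_, ?_⟩
  · obtain ⟨y, rfl⟩ := g.equivRange.surjective x
    rw [g.equivRange.symm_apply_apply]
    exact (hg y).symm
  · exact ⟨⟨(b x).1, h2 (ZFSet.mem_range_self (f := fun x : X => (b x).1) ⟨x, hx⟩)⟩,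
      b.injective (Subtype.ext (hg _))⟩
  · rw [← card_eq g.equivRange.symm]
    refine h3.trans (add_le_add_left ?_ _)
    have h4 := ZFSet.lift_card_range_le (f := fun x : X => (b x).1)
    rwa [Cardinal.lift_id, Cardinal.lift_id] at h4

variable (K)

/-- The class of the structures on types which are isomorphic to a member. -/
def ty : N307.AEClass L where
  mem M _ := ∃ A, K.mem A ∧ Nonempty (M ≃[L] A.A)
  le S := K.E S.subtype
  mem_iso := fun e ⟨A, h, ⟨a⟩⟩ => ⟨A, h, ⟨a.comp e.symm⟩⟩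
  le_iso := fun e S h => h.congr e _ (fun ⟨_, x, hx, rfl⟩ => ⟨⟨x, hx⟩, rfl⟩)
    fun y => ⟨⟨e y, y, y.2, rfl⟩, rfl⟩
  mem_of_le := fun _ ⟨A, B, a, b, h, _⟩ =>
    ⟨⟨A, (K.le_mem A B h).1, ⟨a⟩⟩, ⟨B, (K.le_mem A B h).2, ⟨b⟩⟩⟩
  le_refl := fun ⟨A, h, ⟨a⟩⟩ =>
    ⟨A, A, a.comp Substructure.topEquiv, a, K.le_refl A h, fun _ => rfl⟩
  le_trans := fun T S hS ⟨A, B, a, b, h, hab⟩ => by
    obtain ⟨C, c, hc⟩ := exists_sub_code S.subtype a
    have h1 : K.E (T.subtype.comp S.subtype) :=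
      ⟨C, B, c, b, K.le_trans C A B (hS.le c a hc) h, fun x => (hc x).trans (hab _)⟩
    exact h1.congr (Language.Equiv.refl L _) _ (fun ⟨_, x, hx, rfl⟩ => ⟨⟨x, hx⟩, rfl⟩)
      fun y => ⟨⟨y.1.1, y, y.2, rfl⟩, rfl⟩
  coherence := fun S T hST hS ⟨A, B, a, b, h, hab⟩ => by
    obtain ⟨C, c, hc⟩ := exists_sub_code S.subtype b
    have h0 : ∀ x, (c x).1 = (a (Substructure.inclusion hST x)).1 := fun x =>
      (hc x).trans (hab (Substructure.inclusion hST x)).symm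
    have h1 : K.E (Substructure.inclusion hST) :=
      ⟨C, A, c, a, K.coherence C A B (sub_of _ c a h0) (hS.le c b hc) h, h0⟩
    exact h1.congr (Language.Equiv.refl L _) _ (fun y => ⟨⟨y.1.1, y.2⟩, rfl⟩)
      fun x => ⟨⟨⟨x, hST x.2⟩, x.2⟩, rfl⟩
  chain_union := fun δ hδ U _ S h1 h2 => by
    obtain ⟨B, ⟨b⟩⟩ := exists_code' (L := L) U
    obtain ⟨A, a, C, c, h3, h4, h5, h6, -⟩ :=
      chain hδ S h1 ⊤ (fun x => ⟨fun _ => h2 x, fun _ => trivial⟩) b
    refine ⟨⟨C, h5, ⟨c.comp Substructure.topEquiv.symm⟩⟩, fun i =>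
      ⟨A i, C, a i, c.comp Substructure.topEquiv.symm, h6 i, fun x => ?_⟩⟩
    rw [h3]
    exact (h4 ⟨x, trivial⟩).symm
  chain_smooth := fun δ hδ N _ S h1 h2 U hU => by
    obtain ⟨B, ⟨b⟩⟩ := exists_code' (L := L) N
    obtain ⟨A, a, C, c, h3, h4, -, -, h7⟩ := chain hδ S h1 U hU b
    exact ⟨C, B, c, b, h7 B fun i => (h2 i).le (a i) b (h3 i), h4⟩
  exists_ls := by
    obtain ⟨ℓ, h1, h2⟩ := K.exists_ls
    exact ⟨ℓ, h1, fun M _ ⟨B, hB, ⟨b⟩⟩ X => ls h2 hB b X⟩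

theorem ty_LS : K.ty.old.LS ≤ K.LS := by
  rw [N307.AEClass.old_LS]
  have h := csInf_mem (s := {ℓ | L.card + ℵ₀ ≤ ℓ ∧
    ∀ M, K.mem M → ∀ X ⊆ M.A, ∃ N, K.le N M ∧ X ⊆ N.A ∧ N.A.card ≤ X.card + ℓ}) K.exists_ls
  exact csInf_le' ⟨h.1, fun M _ ⟨B, hB, ⟨b⟩⟩ X => ls h.2 hB b X⟩

theorem ty_mem {M : Type u} [L.Structure M] {A : Str L} (a : M ≃[L] A.A) :
    K.ty.old.mem M ↔ K.mem A :=
  ⟨fun ⟨B, h, ⟨b⟩⟩ => K.mem_iso B A (a.comp b.symm) h, fun h => ⟨A, h, ⟨a⟩⟩⟩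

end AEC

/-- `C` is the class of the structures on sets which belong to `K`. -/
def Rep (K : P307.AEC L) (C : Str L → Prop) : Prop :=
  ∀ (M : Type u) [L.Structure M] (A : Str L), (M ≃[L] A.A) → (K.mem M ↔ C A)

theorem Rep.cat {K : P307.AEC L} {C : Str L → Prop} (h : Rep K C) {κ : Cardinal.{u}} :
    K.CategoricalIn κ ↔ Categorical C κ := by
  constructor
  · rintro ⟨⟨M, _, h1, h2⟩, h3⟩
    obtain ⟨A, ⟨a⟩⟩ := exists_code' (L := L) M
    refine ⟨⟨A, (h M A a).1 h1, (card_eq a).trans h2⟩, fun B C hB hC g1 g2 => ?_⟩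
    obtain ⟨N, _, ⟨b⟩⟩ := exists_decode B
    obtain ⟨N', _, ⟨c⟩⟩ := exists_decode C
    obtain ⟨e⟩ := h3 N N' ((h N B b).2 hB) ((h N' C c).2 hC) ((card_eq b).symm.trans g1)
      ((card_eq c).symm.trans g2)
    exact ⟨c.comp (e.comp b.symm)⟩
  · rintro ⟨⟨A, h1, h2⟩, h3⟩
    obtain ⟨M, _, ⟨a⟩⟩ := exists_decode A
    refine ⟨⟨M, _, (h M A a).2 h1, (card_eq a).symm.trans h2⟩, fun N N' _ _ hN hN' g1 g2 => ?_⟩
    obtain ⟨B, ⟨b⟩⟩ := exists_code' (L := L) N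
    obtain ⟨C, ⟨c⟩⟩ := exists_code' (L := L) N'
    obtain ⟨e⟩ := h3 B C ((h N B b).1 hN) ((h N' C c).1 hN') ((card_eq b).trans g1)
      ((card_eq c).trans g2)
    exact ⟨c.symm.comp (e.comp b)⟩

/-- A class with a member above the Hanf number has members in all large cardinals. -/
theorem exists_mem_of_hanf {K : P307.AEC L} {ℓ : Cardinal.{u}} (hK : K.IsLS ℓ) {M₀ : Type u}
    [L.Structure M₀] (h3 : K.mem M₀) (h4 : max (P307.hanf (2 ^ ℓ)) ℓ ≤ #M₀) {κ : Cardinal.{u}}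
    (hκ : ℓ ≤ κ) : ∃ (N : Type u) (_ : L.Structure N), K.mem N ∧ #N = κ := by
  have hℓ := hK.1
  obtain ⟨Λ, hΛ⟩ : ∃ Λ : Type u, #Λ = ℓ := ⟨ℓ.out, mk_out ℓ⟩
  have hne : Nonempty M₀ := by
    rw [← mk_ne_zero_iff]
    exact (aleph0_pos.trans_le (hℓ.trans ((le_max_right _ _).trans h4))).ne'
  obtain ⟨sk, hsk⟩ := P307.exists_skolem hK h3 Λ hΛ
  have hL : (P307.exLang L Λ).card ≤ ℓ := P307.card_exLang_le hℓ hK.2.1 hΛ.le
  obtain ⟨x⟩ : Nonempty ((#M₀).ord.ToType ≃ M₀) := Cardinal.eq.1 (by rw [mk_ord_toType])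
  obtain ⟨a, ha1, ha2⟩ := P307.exists_template (L := P307.exLang L Λ) hℓ hL x (by
    rw [mk_ord_toType]
    exact (le_max_left _ _).trans h4)
  have ha3 : x (a 2 0) ≠ x (a 2 1) := fun h =>
    absurd (x.injective h) (ha1 2 (show (0 : Fin 2) < 1 by decide)).ne
  obtain ⟨N, hN, c, hc1, hc2⟩ := P307.exists_isEM (L := P307.exLang L Λ) (M := M₀)
    (a := fun n i => x (a n i)) ha2 κ.ord.ToType
  let _ : L.Structure N := (P307.exHom L Λ).reduct N
  have this : (P307.exHom L Λ).IsExpansionOn N := Language.LHom.isExpansionOn_reduct _ _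
  refine P307.exists_mem_card hK hκ (P307.em_le (K := K) (P307.exHom L Λ) hc1 hc2 hsk).1 ?_
  rw [← mk_ord_toType κ]
  exact mk_le_of_injective (hc1.injective ha3)

/-- The trichotomy for the classes represented by an abstract elementary class on types. -/
theorem exists_tri {l : Cardinal.{u}} : ∃ μ : Cardinal.{u}, l ≤ μ ∧
    ∀ (L : Language.{u, u}) (K : P307.AEC L) (C : Str L → Prop), K.LS ≤ l → Rep K C →
      Trichotomy C μ := by
  obtain ⟨μ, h1, h2⟩ := P307.R2.H732.q1 l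
  refine ⟨max μ (max (P307.hanf (2 ^ l)) l), h1.trans (le_max_left _ _), fun L K C hK h => ?_⟩
  have hLS := P307.AEC.isLS_of_LS_le hK
  by_cases ha : ∀ M, C M → M.A.card < max μ (max (P307.hanf (2 ^ l)) l)
  · exact Or.inl ha
  by_cases hb : ∃ κ, max μ (max (P307.hanf (2 ^ l)) l) ≤ κ ∧ Categorical C κ
  · obtain ⟨κ, h3, h4⟩ := hb
    exact Or.inr (Or.inl fun κ' h5 => h.cat.1 (h2 L K hK κ ((le_max_left _ _).trans h3)
      (h.cat.2 h4) κ' ((le_max_left _ _).trans h5)))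
  push Not at ha hb
  refine Or.inr (Or.inr fun κ hκ => ?_)
  obtain ⟨A, h3, h4⟩ := ha
  obtain ⟨M, _, ⟨a⟩⟩ := exists_decode A
  obtain ⟨N, _, h5, h6⟩ := exists_mem_of_hanf hLS ((h M A a).2 h3)
    ((le_max_right _ _).trans (h4.trans (card_eq a).le))
    ((le_max_right _ _).trans ((le_max_right _ _).trans hκ))
  obtain ⟨B, ⟨b⟩⟩ := exists_code' (L := L) N
  by_contra hc
  refine hb κ hκ ⟨⟨B, (h N B b).1 h5, (card_eq b).trans h6⟩, fun D E g1 g2 g3 g4 => ?_⟩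
  by_contra g5
  exact hc ⟨D, E, g1, g2, g3, g4, not_nonempty_iff.1 g5⟩

theorem Trichotomy.transfer {C : Str L → Prop} {μ κ : Cardinal.{u}} (h : Trichotomy C μ)
    (hκ : μ ≤ κ) (hC : Categorical C κ) (κ' : Cardinal.{u}) (hκ' : μ ≤ κ') : Categorical C κ' := by
  rcases h with h | h | h
  · obtain ⟨M, h1, h2⟩ := hC.1
    exact absurd (h M h1) (not_lt.2 (hκ.trans h2.ge))
  · exact h κ' hκ'
  · obtain ⟨M, N, h1, h2, h3, h4, h5⟩ := h κ hκ
    exact absurd (hC.2 M N h1 h2 h3 h4) (not_nonempty_iff.2 h5)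

theorem Trichotomy.mono {C : Str L → Prop} {μ μ' : Cardinal.{u}} (h : Trichotomy C μ)
    (hμ : μ ≤ μ') : Trichotomy C μ' := by
  rcases h with h | h | h
  · exact Or.inl fun M hM => (h M hM).trans_le hμ
  · exact Or.inr (Or.inl fun κ hκ => h κ (hμ.trans hκ))
  · exact Or.inr (Or.inr fun κ hκ => h κ (hμ.trans hκ))

end Vale.Agent.N307Z
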