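import Vale.Agent.N307Z.Bridge

/-!
The pregeometry of the strong substructures of a large member.
-/

universe u v w

open FirstOrder Cardinal Set Function Language

namespace Vale.Agent.N307Z

open Vale.Agent.P307.R2.H427 Vale.Agent.N307
open scoped Classical

/-- The combinatorial content: `St` are the strong sets, `Au` the automorphisms. -/
def Core {E : Type w} (St : Set E → Prop) (Au : (E ≃ E) → Prop) (P : Set E) : Prop :=
  ∃ m : Matroid E, m.Finitary ∧ (∀ F, m.IsFlat F ↔ ∃ V, St V ∧ P ⊆ V ∧ F = m.E ∩ V) ∧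
    (∀ V W, St V → St W → P ⊆ V → V ⊆ W → m.E ∩ W ⊆ V → V = W) ∧
    (∀ B, m.IsBase B → #B = #E) ∧
    ∀ B B', m.IsBase B → m.IsBase B' → ∀ e : B ≃ B',
      ∃ σ, Au σ ∧ (∀ x ∈ P, σ x = x) ∧ ∀ x : B, σ x = e x

theorem Core.map {E : Type w} {E' : Type v} {St : Set E → Prop} {Au : (E ≃ E) → Prop} {P : Set E}
    (h : Core St Au P) (a : E ≃ E') {St' : Set E' → Prop} {Au' : (E' ≃ E') → Prop}
    (hS : ∀ V, St' (a '' V) ↔ St V) (hA : ∀ σ, Au σ → Au' (a.symm.trans (σ.trans a))) :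
    Core St' Au' (a '' P) := by
  obtain ⟨m, h1, h2, h3, h4, h5⟩ := h
  have hi := a.injective
  have hs : ∀ V' : Set E', ∃ V, a '' V = V' := a.surjective.image_surjective
  have hb : ∀ B, (m.mapEquiv a).IsBase (a '' B) → m.IsBase B := fun B hB => by
    rwa [Matroid.mapEquiv_isBase_iff, a.symm_image_image] at hB
  refine ⟨m.mapEquiv a, inferInstance, fun F => ?_, fun V W => ?_, fun B hB => ?_,
    fun B B' hB hB' e => ?_⟩
  · obtain ⟨F, rfl⟩ := hs F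
    rw [Matroid.isFlat_iff_closure_eq, Matroid.mapEquiv_eq_map, Matroid.map_closure_eq,
      hi.preimage_image, hi.image_injective.eq_iff, ← Matroid.isFlat_iff_closure_eq, h2,
      Matroid.map_ground]
    constructor
    · rintro ⟨V, g1, g2, rfl⟩
      exact ⟨a '' V, (hS V).2 g1, image_mono g2, image_inter hi⟩
    · rintro ⟨V, g1, g2, g3⟩
      obtain ⟨V, rfl⟩ := hs V
      exact ⟨V, (hS V).1 g1, (image_subset_image_iff hi).1 g2,
        hi.image_injective (g3.trans (image_inter hi).symm)⟩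
  · obtain ⟨V, rfl⟩ := hs V
    obtain ⟨W, rfl⟩ := hs W
    rw [hS, hS, Matroid.mapEquiv_ground_eq, ← image_inter hi, image_subset_image_iff hi,
      image_subset_image_iff hi, image_subset_image_iff hi, hi.image_injective.eq_iff]
    exact h3 V W
  · obtain ⟨B, rfl⟩ := hs B
    obtain ⟨j⟩ := Cardinal.eq.1 (h4 B (hb B hB))
    exact Cardinal.eq.2 ⟨((a.image B).symm.trans j).trans a⟩
  · obtain ⟨B, rfl⟩ := hs B
    obtain ⟨B', rfl⟩ := hs B'
    obtain ⟨σ, g1, g2, g3⟩ := h5 B B' (hb B hB) (hb B' hB')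
      (((a.image B).trans e).trans (a.image B').symm)
    refine ⟨_, hA σ g1, ?_, ?_⟩
    · rintro _ ⟨x, hx, rfl⟩
      change a (σ (a.symm (a x))) = a x
      rw [a.symm_apply_apply, g2 x hx]
    · rintro ⟨_, x, hx, rfl⟩
      change a (σ (a.symm (a x))) = _
      rw [a.symm_apply_apply, g3 ⟨x, hx⟩]
      exact congrArg Subtype.val ((a.image B').apply_symm_apply (e ⟨a x, x, hx, rfl⟩))

variable {L : Language.{u, u}}

section full

variable {K : P307.AEC L} {l b : Cardinal.{u}} {N : Type u} [L.Structure N]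
  {R : L.Substructure N} {Q : Set N} {C : Geo K l b R Q} {A B : Finset N → L.Substructure N}
  {Y Z : Set N} (hC : Full C)

include hC

theorem mem_of_cl (hA : Sys C Z A) {V : L.Substructure N} (hV : K.le V) (hR : R ≤ V)
    (hZ : Z ⊆ V) {y : N} (hy : y ∈ Q) (h : y ∈ P307.AEC.U A Z) : y ∈ V := by
  obtain ⟨s, hs, hys⟩ := hA.mem_U.1 h
  exact C.cl (hA s hs) hV (hC.sub_bd V) hR (fun x hx => hZ (hs hx)) y hy hys

theorem sys_insert (hA : Sys C Z A) {y : N} (hy : y ∈ Q) (h : y ∉ P307.AEC.U A Z) :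
    ∃ B, Sys C (insert y Z) B := by
  obtain ⟨B, -, hB⟩ := C.exists_insert (T := ⊤) (K.le_refl hC.mem) (hC.sub_bd ⊤)
    (fun s hs => ⟨hA s hs, le_top⟩) hy trivial fun s hs hys => h (P307.AEC.le_U hs hys)
  exact ⟨B, fun s hs => (hB s hs).1⟩

theorem not_mem_of_sys (hA : Sys C Z A) {y : N} (hB : Sys C (insert y Z) B) (h : y ∉ Z) :
    y ∉ P307.AEC.U A Z := fun g => by
  have h1 := hB.mono (subset_insert y Z)
  exact hB.not_mem (subset_insert y Z) (mem_insert y Z) h (mem_of_cl hC hA h1.le_U h1.R_le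
    (fun x hx => h1.self_mem hx) (hB.memQ (mem_insert y Z)) g)

theorem top_of_maximal (hA : Sys C Z A) (h : Maximal (fun Z => ∃ A, Sys C Z A) Z) :
    P307.AEC.U A Z = ⊤ := by
  refine C.nv hA.le_U (K.le_refl hC.mem) (hC.sub_bd ⊤) hA.R_le le_top fun y hy _ => ?_
  by_contra g
  exact g (hA.self_mem (h.2 (sys_insert hC hA hy g) (subset_insert y Z) (mem_insert y Z)))

theorem sys_of_finite (h : ∀ J, J ⊆ Z → J.Finite → ∃ A, Sys C J A) : ∃ A, Sys C Z A := by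
  refine exists_finset_rec (fun A s => (s : Set N) ⊆ Z → C.PS A s)
    (fun A B s hAB g hs => C.congr hAB (g hs)) fun A s ih => ?_
  by_cases hs : (s : Set N) ⊆ Z
  swap
  · exact ⟨R, fun g => absurd g hs⟩
  rcases s.eq_empty_or_nonempty with rfl | hne
  · exact ⟨R, fun _ => C.empty (update_self _ _ _)⟩
  obtain ⟨D, hD⟩ := h s hs s.finite_toSet
  have h1 : ∀ t, t ⊂ s → C.PS A t := fun t ht => ih t ht (coe_sub_of hs ht.1)
  obtain ⟨B, -, hB⟩ := C.ext (N := ⊤) (K.le_refl hC.mem) (hC.sub_bd ⊤) hne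
    (fun t ht => ⟨h1 t ht, le_top⟩) (fun x hx => ⟨hD.memQ hx, trivial⟩) fun x hx g => by
      have h2 : C.PS D (s.erase x) := hD _ (Finset.erase_subset x s)
      exact C.not_mem (hD s Subset.rfl) (Finset.erase_subset x s) hx (Finset.notMem_erase x s)
        (C.cl (h1 _ (Finset.erase_ssubset hx)) (C.le h2) (hC.sub_bd _) (C.P_le h2) (C.mem h2) x
          (hD.memQ hx) g)
  exact ⟨B, fun _ => hB⟩

theorem core_of_full : Core (fun V => ∃ S : L.Substructure N, K.le S ∧ (S : Set N) = V)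
    (fun σ => ∃ τ : N ≃[L] N, τ.toEquiv = σ) R := by
  let m : Matroid N := (IndepMatroid.ofFinitary Q (fun Z => ∃ A, Sys C Z A) ⟨_, sys_empty C⟩
    (fun _ _ ⟨A, hA⟩ h => ⟨A, hA.mono h⟩) (fun I J ⟨A, hA⟩ hI hJ => by
      by_contra g
      push Not at g
      obtain ⟨D, hD⟩ := hJ.1
      have h1 : J ⊆ P307.AEC.U A I := fun x hx => by_contra fun g' =>
        (sys_insert hC hA (hD.memQ hx) g').elim (g x ⟨hx, fun h => g' (hA.self_mem h)⟩)
      refine hI ⟨⟨A, hA⟩, fun I' ⟨E, hE⟩ hII' z hz => by_contra fun g' => ?_⟩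
      refine not_mem_of_sys hC hA (hE.mono (insert_subset hz hII')) g'
        (mem_of_cl hC hD hA.le_U hA.R_le h1 (hE.memQ hz) ?_)
      rw [top_of_maximal hC hD hJ]
      trivial) (fun _ => sys_of_finite hC) fun _ ⟨_, hA⟩ _ hx => hA.memQ hx).matroid
  have hcl : ∀ {Z A}, Sys C Z A → m.closure Z = Q ∩ P307.AEC.U A Z := fun {Z A} hA => by
    ext x
    rw [(show m.Indep Z from ⟨A, hA⟩).mem_closure_iff']
    exact and_congr_right fun hx => ⟨fun g => by_contra fun g' =>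
      g' (hA.self_mem (g (sys_insert hC hA hx g'))),
      fun g ⟨B, hB⟩ => by_contra fun g' => not_mem_of_sys hC hA hB g' g⟩
  have hb : ∀ {Z}, m.IsBase Z → ∃ A, Sys C Z A ∧ P307.AEC.U A Z = ⊤ := fun {Z} hZ =>
    let ⟨A, hA⟩ := hZ.indep
    ⟨A, hA, top_of_maximal hC hA (Matroid.isBase_iff_maximal_indep.1 hZ)⟩
  refine ⟨m, IndepMatroid.ofFinitary_finitary _ _ _ _ _ _ _, fun F => ⟨fun hF => ?_, ?_⟩, ?_,
    fun Z hZ => ?_, fun Z Z' hZ hZ' e => ?_⟩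
  · obtain ⟨I, hI⟩ := m.exists_isBasis F hF.subset_ground
    obtain ⟨A, hA⟩ := hI.indep
    exact ⟨_, ⟨_, hA.le_U, rfl⟩, hA.R_le, by rw [← hF.closure, ← hI.closure_eq_closure, hcl hA]; rfl⟩
  · rintro ⟨_, ⟨S, hS, rfl⟩, hR, rfl⟩
    obtain ⟨Z, B, hB, rfl⟩ := hC.exists_basis_of hS hR
    exact hcl hB ▸ m.isFlat_closure Z
  · rintro _ _ ⟨S, hS, rfl⟩ ⟨T, hT, rfl⟩ h1 h2 h3
    rw [C.nv hS hT (hC.sub_bd T) h1 h2 fun y hy hyT => h3 ⟨hy, hyT⟩]
  · obtain ⟨A, hA, h⟩ := hb hZ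
    exact hC.card_top hA h
  · obtain ⟨A, hA, h⟩ := hb hZ
    obtain ⟨B, hB, h'⟩ := hb hZ'
    let f : N → N := fun x => if hx : x ∈ Z then e ⟨x, hx⟩ else x
    have hf : ∀ x : Z, f x = e x := fun x => dif_pos x.2
    have h0 : ((∅ : Finset N) : Set N) ⊆ Z := by simp
    have h0' : ((∅ : Finset N) : Set N) ⊆ Z' := by simp
    obtain ⟨σ, h1, h2, -⟩ := hC.exists_aut hA h hB h' (e := f)
      ⟨fun x hx => hf ⟨x, hx⟩ ▸ (e ⟨x, hx⟩).2, fun x hx y hy hxy => congrArg Subtype.val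
        (e.injective (Subtype.ext ((hf ⟨x, hx⟩).symm.trans (hxy.trans (hf ⟨y, hy⟩))))),
        fun y hy => ⟨_, (e.symm ⟨y, hy⟩).2, (hf _).trans (by rw [e.apply_symm_apply])⟩⟩
      (fun s => s = ∅) (fun s t hs ht => Finset.subset_empty.1 (hs ▸ ht)) rfl (f := fun a => a)
      (by
        rintro _ - rfl
        rw [Finset.image_empty, C.bot (hA ∅ h0), C.bot (hB ∅ h0')]
        exact isoOn_id R) (by
        rintro _ - rfl x hx
        exact absurd hx (Finset.notMem_empty x)) fun _ _ => rfl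
    exact ⟨_, ⟨σ, rfl⟩, fun x hx => h1 ∅ h0 rfl x ((C.bot (hA ∅ h0)).symm ▸ hx),
      fun x => (h2 x x.2).trans (hf x)⟩

end full

/-- The geometry inside all the members above `χ`. -/
def Geom (K : P307.AEC L) (χ : Cardinal.{u}) : Prop :=
  ∀ (N : Type u) [L.Structure N], K.mem N → χ ≤ #N → ∃ R : L.Substructure N, K.le R ∧ #R < χ ∧
    Core (fun V => ∃ S : L.Substructure N, K.le S ∧ (S : Set N) = V)
      (fun σ => ∃ τ : N ≃[L] N, τ.toEquiv = σ) R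

theorem Geom.mono {K : P307.AEC L} {χ μ : Cardinal.{u}} (h : Geom K χ) (hμ : χ ≤ μ) : Geom K μ :=
  fun N _ hN g =>
    let ⟨R, h1, h2, h3⟩ := h N hN (hμ.trans g)
    ⟨R, h1, h2.trans_le hμ, h3⟩

theorem geom_of_geo {K : P307.AEC L} (h : HasGeo K) : ∃ χ, Geom K χ := by
  obtain ⟨l, CC, _, P, Q, C, hLS, hcat, hmon, hPl, hP, hinv, hI⟩ := h
  have hne : Nonempty CC := by
    have h2 : Nonempty P := by
      rw [← mk_ne_zero_iff, hPl]
      exact (hLS.1.trans_lt' aleph0_pos).ne'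
    exact h2.map Subtype.val
  refine ⟨Order.succ l, fun N _ hN h1 => ?_⟩
  have hlN : l < #N := Order.succ_le_iff.1 h1
  obtain ⟨X, hX⟩ := le_mk_iff_exists_set.1 hlN.le
  obtain ⟨R, -, hR, hXR, hRl⟩ := exists_small_le hLS (K.le_refl hN) X (fun _ _ => trivial) hX.le
  have hRl' : #R = l := le_antisymm hRl (hX.ge.trans (mk_le_mk_of_subset hXR))
  obtain ⟨φ⟩ := hcat.2 R P (K.mem_of_le R hR).1 (K.mem_of_le P hP).1 hRl' hPl
  exact ⟨R, hR, Order.lt_succ_of_le hRl,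
    core_of_full (full_geoM hLS hmon hPl hP hR hinv hI hlN φ)⟩

theorem Geom.of_up {L' : Language.{u, u}} {φ : L →ᴸ L'} {K : P307.AEC L}
    (hf : ∀ n, Function.Bijective (φ.onFunction (n := n)))
    (hr : ∀ n, Function.Bijective (φ.onRelation (n := n))) {χ : Cardinal.{u}}
    (h : Geom (K.up φ hf fun n => (hr n).2) χ) : Geom K χ := by
  intro N i
  obtain ⟨s, rfl⟩ : ∃ s : L'.Structure N, i = @LHom.reduct L L' φ N s := by
    refine ⟨P307.H304.expd hf hr N, ?_⟩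
    have h1 := P307.H304.expd_spec hf hr N
    ext n g x
    · exact (@LHom.IsExpansionOn.map_onFunction L L' φ N i (P307.H304.expd hf hr N) h1 n g x).symm
    · exact (iff_of_eq
        (@LHom.IsExpansionOn.map_onRelation L L' φ N i (P307.H304.expd hf hr N) h1 n g x)).symm
  intro hN hχ
  obtain ⟨R, h1, h2, h3⟩ := h N hN hχ
  refine ⟨P307.dn φ R, h1, h2, ?_⟩
  have h4 := h3.map (_root_.Equiv.refl N)
    (St' := fun V => ∃ S : L.Substructure (P307.Dn φ N), K.le S ∧ (S : Set (P307.Dn φ N)) = V)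
    (Au' := fun σ => ∃ τ : P307.Dn φ N ≃[L] P307.Dn φ N, τ.toEquiv = σ) (fun V => by
      rw [_root_.Equiv.coe_refl, image_id]
      refine ⟨fun ⟨S, g1, g2⟩ => ?_, fun ⟨S, g1, g2⟩ => ⟨P307.dn φ S, g1, g2⟩⟩
      obtain ⟨S, rfl⟩ := P307.exists_up (fun n => (hf n).2) S
      exact ⟨S, g1, g2⟩) (by
      rintro _ ⟨τ, rfl⟩
      exact ⟨P307.dnEquiv φ τ, rfl⟩)
  rw [_root_.Equiv.coe_refl, image_id] at h4
  exact h4

theorem exists_geom (l : Cardinal.{u}) : ∃ μ : Cardinal.{u},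
    ∀ (L : Language.{u, u}) (K : P307.AEC L), K.LS ≤ l →
      (∀ ν : Cardinal.{u}, ∃ κ, ν < κ ∧ K.CategoricalIn κ) → Geom K μ := by
  obtain ⟨Λ, hΛ⟩ : ∃ Λ : Type u, #Λ = l := ⟨l.out, mk_out l⟩
  have h : ∀ c : P307.CodeTy Λ, ∃ χ : Cardinal.{u}, ∀ K : P307.AEC (P307.canLang c.1.1 c.1.2),
      K.IsLS #Λ → K.part Λ = c.2 → (∀ ν : Cardinal.{u}, ∃ κ, ν < κ ∧ K.CategoricalIn κ) →
        Geom K χ := by
    intro c
    by_cases hc : ∃ K : P307.AEC (P307.canLang c.1.1 c.1.2), K.IsLS #Λ ∧ K.part Λ = c.2 ∧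
      ∀ ν : Cardinal.{u}, ∃ κ, ν < κ ∧ K.CategoricalIn κ
    · obtain ⟨K, h1, h2, h3⟩ := hc
      obtain ⟨χ, hχ⟩ := geom_of_geo (hasGeo h3)
      refine ⟨χ, fun K' g1 g2 _ => ?_⟩
      rwa [eq_of_part (g2.trans h2.symm) g1 h1]
    · exact ⟨0, fun K g1 g2 g3 => absurd ⟨K, g1, g2, g3⟩ hc⟩
  choose χ hχ using h
  have hbdd : BddAbove (Set.range χ) := bddAbove_of_small
  refine ⟨⨆ c, χ c, fun L K hK hcat => ?_⟩
  have hLS : K.IsLS #Λ := P307.AEC.isLS_of_LS_le (hK.trans hΛ.ge)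
  obtain ⟨A, B, φ, hf, hr⟩ := P307.exists_canLang L Λ hLS.2.1
  refine Geom.of_up hf hr ((hχ ⟨(A, B), (K.up φ hf fun n => (hr n).2).part Λ⟩ _
    (P307.AEC.up_isLS hf _ hLS) rfl fun ν => ?_).mono (le_ciSup hbdd _))
  obtain ⟨κ, h1, h2⟩ := hcat ν
  exact ⟨κ, h1, (P307.AEC.up_categoricalIn hf hr κ).2 h2⟩

theorem mem_of_eq_of_mem {x y A : ZFSet.{u}} (h : x = y) (hy : y ∈ A) : x ∈ A := h ▸ hy

theorem geometric_of_geom {K : AEC L} {μ : Cardinal.{u}} (h : Geom K.ty.old μ) (N : Str L)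
    (hN : K.mem N) (hμ : μ ≤ N.A.card) : ∃ P, K.le P N ∧ P.A.card < μ ∧ Geometric K P N := by
  obtain ⟨M, _, ⟨a⟩⟩ := exists_decode N
  obtain ⟨R, h1, h2, h3⟩ := h M ((K.ty_mem a).2 hN) (hμ.trans (card_eq a).le)
  have code : ∀ S : L.Substructure M, K.E S.subtype → ∃ V, K.le V N ∧ V.A.card = #S ∧
      a '' (S : Set M) = {x | x.1 ∈ V.A} := fun S hS => by
    obtain ⟨V, c, hc⟩ := exists_sub_code S.subtype a
    refine ⟨V, hS.le c a hc, card_eq c, Set.ext fun x => ⟨?_, fun hx => ?_⟩⟩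
    · rintro ⟨y, hy, rfl⟩
      exact mem_of_eq_of_mem (hc ⟨y, hy⟩).symm (c ⟨y, hy⟩).2
    · obtain ⟨y, hy⟩ := c.surjective ⟨x.1, hx⟩
      exact ⟨y, y.2, Subtype.ext ((hc y).symm.trans (congrArg Subtype.val hy))⟩
  have hsub : ∀ V, K.le V N → ∀ x ∈ V.A, x ∈ N.A := fun V hV x hx => by
    obtain ⟨f, hf⟩ := K.le_sub V N hV
    exact mem_of_eq_of_mem (hf ⟨x, hx⟩).symm (f ⟨x, hx⟩).2
  obtain ⟨P, p1, p2, p3⟩ := code R h1
  have h4 := h3.map a.toEquiv (St' := fun X => ∃ V, K.le V N ∧ X = {x | x.1 ∈ V.A})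
    (Au' := fun σ => ∃ τ : N.A ≃[L] N.A, τ.toEquiv = σ) (fun X => by
      constructor
      · rintro ⟨V, g1, g2⟩
        obtain ⟨f, hf⟩ := K.le_sub V N g1
        let g : V.A ↪[L] M := a.symm.toEmbedding.comp f
        have hg : ∀ y, (a (g y)).1 = y.1 := fun y => by
          change (a (a.symm (f y))).1 = _
          rw [a.apply_symm_apply, hf]
        refine ⟨g.toHom.range, ⟨V, N, g.equivRange.symm, a, g1, fun x => ?_⟩,
          a.injective.image_injective (Set.ext fun x => ?_)⟩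
        · obtain ⟨y, rfl⟩ := g.equivRange.surjective x
          rw [g.equivRange.symm_apply_apply]
          exact (hg y).symm
        · refine Iff.trans ?_ (Set.ext_iff.1 g2 x).symm
          constructor
          · rintro ⟨_, ⟨y, rfl⟩, rfl⟩
            exact mem_of_eq_of_mem (hg y) y.2
          · exact fun hx => ⟨_, ⟨⟨x.1, hx⟩, rfl⟩, Subtype.ext (hg _)⟩
      · rintro ⟨S, g1, rfl⟩
        obtain ⟨V, g2, -, g3⟩ := code S g1
        exact ⟨V, g2, g3⟩) (by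
      rintro _ ⟨τ, rfl⟩
      exact ⟨a.comp (τ.comp a.symm), rfl⟩)
  rw [show a.toEquiv '' (R : Set M) = {x | x.1 ∈ P.A} from p3] at h4
  obtain ⟨m, m1, m2, m3, m4, m5⟩ := h4
  refine ⟨P, p1, p2.trans_lt h2, m, m1, fun F => (m2 F).trans ⟨?_, ?_⟩,
    fun V W hV hW g1 g2 g3 => ?_, m4, fun B B' hB hB' e => ?_⟩
  · rintro ⟨_, ⟨V, hV, rfl⟩, g1, rfl⟩
    exact ⟨V, hV, fun x hx => g1 (a := ⟨x, hsub P p1 x hx⟩) hx, rfl⟩
  · rintro ⟨V, hV, g1, rfl⟩
    exact ⟨_, ⟨V, hV, rfl⟩, fun x hx => g1 hx, rfl⟩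
  · have g4 := m3 _ _ ⟨V, hV, rfl⟩ ⟨W, hW, rfl⟩ (fun x hx => g1 hx) (fun x hx => g2 hx)
      fun x hx => g3 x hx.1 hx.2
    exact ZFSet.ext fun x => ⟨fun hx => g2 hx,
      fun hx => (Set.ext_iff.1 g4 ⟨x, hsub W hW x hx⟩).2 hx⟩
  · obtain ⟨_, ⟨τ, rfl⟩, g1, g2⟩ := m5 B B' hB hB' e
    exact ⟨τ, g1, g2⟩

end Vale.Agent.N307Z
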