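import Vale.Agent.N307Z.Types
import Vale.Agent.N307Z.Geo

/-!
The question for classes of structures on sets, the geometry, the trichotomy.
-/

universe u

open FirstOrder Cardinal

namespace Vale.Agent.N307Z

theorem main (l : Cardinal.{u}) (hl : ℵ₀ ≤ l) :
    ∃ μ : Cardinal.{u}, l ≤ μ ∧
      (∀ (L : Language.{u, u}) (K : AEC L), K.LS ≤ l → ∀ κ, μ ≤ κ → Categorical K.mem κ →
        ∀ κ', μ ≤ κ' → Categorical K.mem κ') ∧
      (∀ (L : Language.{u, u}) (K : AEC L), K.LS ≤ l → ∀ κ, μ ≤ κ → Categorical K.mem κ →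
        ∀ N, K.mem N → μ ≤ N.A.card → ∃ P, K.le P N ∧ P.A.card < μ ∧ Geometric K P N) ∧
      (∀ (L : Language.{u, u}) (K : AEC L), K.LS ≤ l → Trichotomy K.mem μ) ∧
      (∀ L : Language.{u, u}, L.card ≤ l → ∀ ψ : Fml L l 0,
        Trichotomy (fun M : Str L => ψ.Sat M.A default) μ) ∧
      (∀ L : Language.{u, u}, L.card ≤ l →
        ∀ (T : L.Theory) (Γ : Set (Σ n : ℕ, Set (L.BoundedFormula Empty n))),
          Trichotomy (fun M : Str L => M.A ⊨ T ∧ Omits M Γ) μ) := by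
  obtain ⟨μ₀, h0, H0⟩ := exists_tri (l := 2 ^ l)
  obtain ⟨μ₁, H1⟩ := exists_geom l
  have h2 : l ≤ 2 ^ l := (cantor l).le
  have rep : ∀ (L : Language.{u, u}) (K : AEC L), Rep K.ty.old K.mem :=
    fun L K M _ A a => K.ty_mem a
  have tri : ∀ (L : Language.{u, u}) (K : AEC L), K.LS ≤ l → Trichotomy K.mem (max μ₀ μ₁) :=
    fun L K hK => (H0 L _ _ (K.ty_LS.trans (hK.trans h2)) (rep L K)).mono (le_max_left _ _)
  refine ⟨max μ₀ μ₁, h2.trans (h0.trans (le_max_left _ _)),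
    fun L K hK κ hκ hc => (tri L K hK).transfer hκ hc, fun L K hK κ hκ hc => ?_, tri,
    fun L hL ψ => (H0 L _ _ ((modK_LS hl hL ψ).trans h2) (modK_rep hl hL ψ)).mono (le_max_left _ _),
    fun L hL T Γ => ?_⟩
  · refine geometric_of_geom ((H1 L _ (K.ty_LS.trans hK) fun ν => ?_).mono (le_max_right _ _))
    exact ⟨Order.succ (max (max μ₀ μ₁) ν), Order.lt_succ_of_le (le_max_right _ _),
      (rep L K).cat.2 ((tri L K hK).transfer hκ hc _ ((le_max_left _ _).trans (Order.le_succ _)))⟩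
  · obtain ⟨ψ, hψ⟩ := exists_sentence hl hL T Γ
    rw [← funext fun A => propext (hψ A)]
    exact (H0 L _ _ (modK_LS (hl.trans h2) (hL.trans h2) ψ) (modK_rep _ _ ψ)).mono (le_max_left _ _)

end Vale.Agent.N307Z
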