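import Vale.Agent.N307Z.Bridge

/-!
The models of a sentence form an abstract elementary class.
-/

universe u v w

open FirstOrder Cardinal Set Function Language

namespace Vale.Agent.N307Z

variable {L : Language.{u, u}} {l : Cardinal.{u}}

theorem comp_snoc' {α : Type v} {β : Type w} {n : ℕ} (f : α → β) (v : Fin n → α) (x : α) :
    f ∘ (Fin.snoc v x : Fin (n + 1) → α) = Fin.snoc (f ∘ v) (f x) := Fin.comp_snoc f v x

namespace Fml

/-- The Tarski-Vaught condition for all the subformulas. -/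
def Good {M : Type w} [L.Structure M] (X : Set M) : ∀ {n : ℕ}, Fml L l n → Prop
  | _, .eq _ _ => True
  | _, .rel _ _ => True
  | _, .not φ => φ.Good X
  | _, .and _ _ φ => ∀ i, (φ i).Good X
  | n, .many ι _ φ => φ.Good X ∧ ∀ v : Fin n → M, (∀ k, v k ∈ X) →
      (∃ x : ι → M, Injective x ∧ ∀ i, x i ∈ X ∧ φ.Sat M (Fin.snoc v (x i))) ∨
        ∀ y, φ.Sat M (Fin.snoc v y) → y ∈ X

variable {M : Type v} {N : Type w} [L.Structure M] [L.Structure N]

theorem good_univ {n : ℕ} (φ : Fml L l n) : φ.Good (Set.univ : Set M) := by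
  induction φ with
  | eq => trivial
  | rel => trivial
  | not φ ih => exact ih
  | and ι h φ ih => exact ih
  | many ι h φ ih => exact ⟨ih, fun _ _ => Or.inr fun _ _ => trivial⟩

theorem sat_iff (f : M ↪[L] N) {n : ℕ} (φ : Fml L l n) (h : φ.Good (range f)) (v : Fin n → M) :
    φ.Sat M v ↔ φ.Sat N (f ∘ v) := by
  induction φ with
  | eq s t =>
    change s.realize v = t.realize v ↔ s.realize (f ∘ v) = t.realize (f ∘ v)
    rw [HomClass.realize_term, HomClass.realize_term, f.injective.eq_iff]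
  | rel r t =>
    change Structure.RelMap r (fun i => (t i).realize v) ↔
      Structure.RelMap r fun i => (t i).realize (f ∘ v)
    simp only [HomClass.realize_term]
    exact (f.map_rel r _).symm
  | not φ ih => exact not_congr (ih h v)
  | and ι _ φ ih => exact forall_congr' fun i => ih i (h i) v
  | many ι _ φ ih =>
    have key : ∀ y, φ.Sat M (Fin.snoc v y) ↔ φ.Sat N (Fin.snoc (f ∘ v) (f y)) := fun y => by
      rw [ih h.1, comp_snoc']
    have back : ∀ x : ι → N, Injective x → (∀ i, x i ∈ range f ∧ φ.Sat N (Fin.snoc (f ∘ v) (x i))) →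
        ∃ x : ι → M, Injective x ∧ ∀ i, φ.Sat M (Fin.snoc v (x i)) := fun x h1 h2 => by
      choose y hy using fun i => (h2 i).1
      refine ⟨y, fun i j hij => h1 ?_, fun i => (key _).2 ?_⟩
      · rw [← hy, ← hy, hij]
      · rw [hy]
        exact (h2 i).2
    refine ⟨fun ⟨x, h1, h2⟩ => ⟨f ∘ x, f.injective.comp h1, fun i => (key _).1 (h2 i)⟩,
      fun ⟨x, h1, h2⟩ => ?_⟩
    rcases h.2 (f ∘ v) (fun k => ⟨v k, rfl⟩) with ⟨x', h3, h4⟩ | h3
    · exact back x' h3 h4
    · exact back x h1 fun i => ⟨h3 _ (h2 i), h2 i⟩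

theorem sat_equiv (e : M ≃[L] N) {n : ℕ} (φ : Fml L l n) (v : Fin n → M) :
    φ.Sat M v ↔ φ.Sat N (e ∘ v) := by
  refine sat_iff e.toEmbedding φ ?_ v
  rw [show range e.toEmbedding = Set.univ from e.surjective.range_eq]
  exact φ.good_univ

theorem good_iff (f : M ↪[L] N) (X : Set M) {n : ℕ} (φ : Fml L l n) (h : φ.Good (range f)) :
    φ.Good X ↔ φ.Good (f '' X) := by
  induction φ with
  | eq => rfl
  | rel => rfl
  | not φ ih => exact ih h
  | and ι _ φ ih => exact forall_congr' fun i => ih i (h i)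
  | many ι _ φ ih =>
    have key : ∀ v y, φ.Sat M (Fin.snoc v y) ↔ φ.Sat N (Fin.snoc (f ∘ v) (f y)) := fun v y => by
      rw [sat_iff f φ h.1, comp_snoc']
    refine and_congr (ih h.1) ⟨fun H w hw => ?_, fun H v hv => ?_⟩
    · choose v hv hvw using hw
      obtain rfl : w = f ∘ v := funext fun k => (hvw k).symm
      rcases H v hv with ⟨x, h1, h2⟩ | h1
      · exact Or.inl ⟨f ∘ x, f.injective.comp h1, fun i =>
          ⟨⟨x i, (h2 i).1, rfl⟩, (key _ _).1 (h2 i).2⟩⟩
      · have h2 : ∀ y, y ∈ range f → φ.Sat N (Fin.snoc (f ∘ v) y) → y ∈ f '' X := by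
          rintro _ ⟨y, rfl⟩ hy
          exact ⟨y, h1 y ((key _ _).2 hy), rfl⟩
        rcases h.2 (f ∘ v) (fun k => ⟨v k, rfl⟩) with ⟨x, h3, h4⟩ | h3
        · exact Or.inl ⟨x, h3, fun i => ⟨h2 _ (h4 i).1 (h4 i).2, (h4 i).2⟩⟩
        · exact Or.inr fun y hy => h2 y (h3 y hy) hy
    · rcases H (f ∘ v) (fun k => ⟨v k, hv k, rfl⟩) with ⟨x, h1, h2⟩ | h1
      · choose y hy hyx using fun i => (h2 i).1
        refine Or.inl ⟨y, fun i j hij => h1 ?_, fun i => ⟨hy i, (key _ _).2 ?_⟩⟩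
        · rw [← hyx, ← hyx, hij]
        · rw [hyx]
          exact (h2 i).2
      · refine Or.inr fun y hy => ?_
        obtain ⟨z, hz, hzy⟩ := h1 _ ((key _ _).1 hy)
        exact f.injective hzy ▸ hz

theorem exists_link {ι : Type*} [LinearOrder ι] [Nonempty ι] {S : ι → Set M}
    (hS : Monotone S) {n : ℕ} (v : Fin n → M) (hv : ∀ k, v k ∈ ⋃ i, S i) : ∃ i, ∀ k, v k ∈ S i := by
  choose g hg using fun k => mem_iUnion.1 (hv k)
  obtain ⟨i, hi⟩ := (Set.finite_range g).bddAbove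
  exact ⟨i, fun k => hS (hi ⟨k, rfl⟩) (hg k)⟩

theorem good_iUnion {ι : Type*} [LinearOrder ι] [Nonempty ι] {S : ι → Set M}
    (hS : Monotone S) {n : ℕ} (φ : Fml L l n) (h : ∀ i, φ.Good (S i)) : φ.Good (⋃ i, S i) := by
  induction φ with
  | eq => trivial
  | rel => trivial
  | not φ ih => exact ih h
  | and κ _ φ ih => exact fun j => ih j fun i => h i j
  | many κ _ φ ih =>
    refine ⟨ih fun i => (h i).1, fun v hv => ?_⟩
    obtain ⟨i, hi⟩ := exists_link hS v hv
    rcases (h i).2 v hi with ⟨x, h1, h2⟩ | h1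
    · exact Or.inl ⟨x, h1, fun j => ⟨mem_iUnion.2 ⟨i, (h2 j).1⟩, (h2 j).2⟩⟩
    · exact Or.inr fun y hy => mem_iUnion.2 ⟨i, h1 y hy⟩

theorem range_subtype (S : L.Substructure M) : range S.subtype = S := Subtype.range_coe

theorem good_chain {ι : Type*} [LinearOrder ι] {S : ι → L.Substructure M}
    (hS : ∀ i j, i ≤ j → S i ≤ S j) (hU : ∀ x, ∃ i, x ∈ S i) {n : ℕ} (φ : Fml L l n)
    (h : ∀ i j, i ≤ j → φ.Good ((↑) ⁻¹' (S i : Set M) : Set (S j))) (i : ι) :
    φ.Good (S i : Set M) := by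
  induction φ generalizing i with
  | eq => trivial
  | rel => trivial
  | not φ ih => exact ih h i
  | and κ _ φ ih => exact fun k => ih k (fun i j hij => h i j hij k) i
  | many κ _ φ ih =>
    have ih' := ih fun i j hij => (h i j hij).1
    refine ⟨ih' i, fun v hv => ?_⟩
    by_cases hc : ∀ y, φ.Sat M (Fin.snoc v y) → y ∈ S i
    · exact Or.inr hc
    push Not at hc
    obtain ⟨y, hy, hyi⟩ := hc
    obtain ⟨j, hj⟩ := hU y
    have hij : i ≤ j := by
      by_contra hij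
      exact hyi (hS j i (not_le.1 hij).le hj)
    let w : Fin _ → S j := fun k => ⟨v k, hS i j hij (hv k)⟩
    have key : ∀ z : S j, φ.Sat (S j) (Fin.snoc w z) ↔ φ.Sat M (Fin.snoc v z) := fun z => by
      rw [sat_iff (S j).subtype φ (by rw [range_subtype]; exact ih' j), comp_snoc']
      rfl
    rcases (h i j hij).2 w hv with ⟨x, h1, h2⟩ | h1
    · exact Or.inl ⟨fun k => x k, Subtype.val_injective.comp h1, fun k =>
        ⟨(h2 k).1, (key _).1 (h2 k).2⟩⟩
    · exact absurd (h1 ⟨y, hj⟩ ((key _).2 hy)) hyi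

theorem exists_wit {M : Type u} [L.Structure M] (hl : ℵ₀ ≤ l) {n : ℕ} (φ : Fml L l n) :
    ∃ c : Finset M → Set M, (∀ F, #(c F) ≤ l) ∧
      ∀ X : Set M, (∀ F : Finset M, (F : Set M) ⊆ X → c F ⊆ X) → φ.Good X := by
  classical
  induction φ with
  | eq => exact ⟨fun _ => ∅, fun _ => by simp, fun _ _ => trivial⟩
  | rel => exact ⟨fun _ => ∅, fun _ => by simp, fun _ _ => trivial⟩
  | not φ ih => exact ih
  | and ι hι φ ih =>
    choose c h1 h2 using ih
    refine ⟨fun F => ⋃ i, c i F, fun F => ?_, fun X hX i => h2 i X fun F hF => ?_⟩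
    · exact (mk_iUnion_le _).trans ((mul_le_mul' hι (ciSup_le' fun i => h1 i F)).trans
        (Cardinal.mul_eq_self hl).le)
    · exact (subset_iUnion (fun i => c i F) i).trans (hX F hF)
  | @many n ι hι φ ih =>
    obtain ⟨c, h1, h2⟩ := ih
    have h3 : ∀ v : Fin n → M, ∃ W : Set M, #W ≤ l ∧
        ((∃ x : ι → M, Injective x ∧ ∀ i, x i ∈ W ∧ φ.Sat M (Fin.snoc v (x i))) ∨
          ∀ y, φ.Sat M (Fin.snoc v y) → y ∈ W) := fun v => by
      rcases le_total #ι #{y | φ.Sat M (Fin.snoc v y)} with h | h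
      · obtain ⟨x⟩ := (Cardinal.le_def _ _).1 h
        exact ⟨range fun i => (x i : M), mk_range_le.trans hι, Or.inl ⟨fun i => x i,
          Subtype.val_injective.comp x.injective, fun i => ⟨⟨i, rfl⟩, (x i).2⟩⟩⟩
      · exact ⟨_, h.trans hι, Or.inr fun y hy => hy⟩
    choose W hW1 hW2 using h3
    refine ⟨fun F => c F ∪ ⋃ v ∈ {v : Fin n → M | ∀ k, v k ∈ F}, W v, fun F => ?_,
      fun X hX => ⟨h2 X fun F hF => subset_union_left.trans (hX F hF), fun v hv => ?_⟩⟩
    · have h4 : #{v : Fin n → M | ∀ k, v k ∈ F} ≤ l :=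
        (Set.Finite.lt_aleph0 (Set.Finite.pi' fun _ : Fin n => F.finite_toSet)).le.trans hl
      have h5 : ⨆ v : {v : Fin n → M | ∀ k, v k ∈ F}, #(W v.1) ≤ l := ciSup_le' fun v => hW1 v.1
      exact (mk_union_le _ _).trans (add_le_of_le hl (h1 F) ((mk_biUnion_le W _).trans
        ((mul_le_mul' h4 h5).trans (Cardinal.mul_eq_self hl).le)))
    · have h4 : W v ⊆ X := by
        refine Subset.trans ?_ (hX (Finset.univ.image v) ?_)
        · refine subset_union_of_subset_right ?_ _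
          exact subset_biUnion_of_mem (u := W) fun k => Finset.mem_image_of_mem v (Finset.mem_univ k)
        · intro y hy
          obtain ⟨k, -, rfl⟩ := Finset.mem_image.1 hy
          exact hv k
      rcases hW2 v with ⟨x, h5, h6⟩ | h5
      · exact Or.inl ⟨x, h5, fun i => ⟨h4 (h6 i).1, (h6 i).2⟩⟩
      · exact Or.inr fun y hy => h4 (h5 y hy)

end Fml

theorem card_closure_le {M : Type u} [L.Structure M] (hl : ℵ₀ ≤ l) (hL : L.card ≤ l) (A : Set M) :
    #(Substructure.closure L A) ≤ #A + l := by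
  have h := Substructure.lift_card_closure_le (L := L) (s := A)
  simp only [Cardinal.lift_id] at h
  refine h.trans (max_le (hl.trans le_add_self) (add_le_add_right (le_trans ?_ hL) _))
  exact mk_le_of_injective (f := (Sum.inl : _ → L.Symbols)) Sum.inl_injective

/-- The class of all structures. -/
def allK (L : Language.{u, u}) : P307.AEC L where
  mem _ _ := True
  le _ := True
  mem_iso := fun _ _ => trivial
  le_iso := fun _ _ _ => trivial
  mem_of_le := fun _ _ => ⟨trivial, trivial⟩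
  le_refl := fun _ => trivial
  le_trans := fun _ _ _ _ => trivial
  coherence := fun _ _ _ _ _ => trivial
  chain_union := fun _ _ _ _ => ⟨trivial, fun _ => trivial⟩
  chain_smooth := fun _ _ _ => trivial
  exists_ls := ⟨max ℵ₀ L.card, le_max_left _ _, le_max_right _ _, fun _ A =>
    ⟨_, trivial, Substructure.subset_closure,
      card_closure_le (le_max_left _ _) (le_max_right _ _) A⟩⟩

theorem Fml.ls (hl : ℵ₀ ≤ l) (hL : L.card ≤ l) (ψ : Fml L l 0) {M : Type u} [L.Structure M]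
    (A : Set M) : ∃ S : L.Substructure M, ψ.Good (S : Set M) ∧ A ⊆ S ∧ #S ≤ #A + l := by
  obtain ⟨c, h1, h2⟩ := ψ.exists_wit (M := M) hl
  have hK : (allK L).IsLS (#A + l) := ⟨hl.trans le_add_self, hL.trans le_add_self, fun N _ _ B =>
    ⟨_, trivial, Substructure.subset_closure,
      card_closure_le (hl.trans le_add_self) (hL.trans le_add_self) B⟩⟩
  obtain ⟨S, -, h3, h4, h5⟩ := P307.AEC.exists_closed_le hK (M := M) trivial c
    (fun F => (h1 F).trans le_add_self) A le_self_add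
  exact ⟨S, h2 S h5, h3, h4⟩

theorem Fml.sat_sub {M : Type u} [L.Structure M] (ψ : Fml L l 0) (S : L.Substructure M)
    (h : ψ.Good (S : Set M)) : ψ.Sat S default ↔ ψ.Sat M default := by
  rw [Fml.sat_iff S.subtype ψ (by rwa [Fml.range_subtype]), Subsingleton.elim (_ ∘ _) default]

theorem Fml.sat_equiv' {M : Type v} {N : Type w} [L.Structure M] [L.Structure N] (ψ : Fml L l 0)
    (e : M ≃[L] N) : ψ.Sat M default ↔ ψ.Sat N default := by
  rw [Fml.sat_equiv e, Subsingleton.elim (_ ∘ _) default]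

/-- The models of a sentence. -/
def modK (hl : ℵ₀ ≤ l) (hL : L.card ≤ l) (ψ : Fml L l 0) : P307.AEC L where
  mem M _ := ψ.Sat M default
  le {N} _ S := ψ.Sat N default ∧ ψ.Good (S : Set N)
  mem_iso := fun e h => (ψ.sat_equiv' e).1 h
  le_iso := fun e S h => ⟨(ψ.sat_equiv' e).1 h.1, (ψ.good_iff e.toEmbedding S (by
    rw [show range e.toEmbedding = Set.univ from e.surjective.range_eq]
    exact ψ.good_univ)).1 h.2⟩
  mem_of_le := fun S h => ⟨(ψ.sat_sub S h.2).2 h.1, h.1⟩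
  le_refl := fun h => ⟨h, ψ.good_univ⟩
  le_trans := fun T S hS hT =>
    ⟨hT.1, (ψ.good_iff T.subtype S (by rw [Fml.range_subtype]; exact hT.2)).1 hS.2⟩
  coherence := fun S T hST hS hT => ⟨(ψ.sat_sub T hT.2).2 hT.1,
    (ψ.good_iff T.subtype _ (by rw [Fml.range_subtype]; exact hT.2)).2 (by
      convert hS.2 using 1
      ext x
      exact ⟨fun ⟨y, hy, h⟩ => h ▸ hy, fun hx => ⟨⟨x, hST hx⟩, hx, rfl⟩⟩)⟩
  chain_union := fun {U} _ {ι} _ _ hι S h1 h2 h3 => by
    have h4 := ψ.good_chain h1 h3 fun i j hij => (h2 i j hij).2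
    obtain ⟨i⟩ := hι
    have h5 := (ψ.sat_sub _ (h4 i)).1 (h2 i i le_rfl).1
    exact ⟨h5, fun j => ⟨h5, h4 j⟩⟩
  chain_smooth := fun {N} _ {ι} _ _ hι S h1 h2 => by
    refine ⟨(h2 hι.some).1, ?_⟩
    convert ψ.good_iUnion (S := fun i => (S i : Set N)) (fun i j hij => h1 i j hij)
      fun i => (h2 i).2 using 1
    ext x
    rw [SetLike.mem_coe, Substructure.mem_iSup_of_directed (directed_of_isDirected_le h1),
      mem_iUnion]
    rfl
  exists_ls := ⟨l, hl, hL, fun h A =>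
    let ⟨S, h1, h2⟩ := ψ.ls hl hL A
    ⟨S, ⟨h, h1⟩, h2⟩⟩

theorem modK_LS (hl : ℵ₀ ≤ l) (hL : L.card ≤ l) (ψ : Fml L l 0) : (modK hl hL ψ).LS ≤ l :=
  csInf_le' ⟨hl, hL, fun _ _ h A =>
    let ⟨S, h1, h2⟩ := ψ.ls hl hL A
    ⟨S, ⟨h, h1⟩, h2⟩⟩

theorem modK_rep (hl : ℵ₀ ≤ l) (hL : L.card ≤ l) (ψ : Fml L l 0) :
    Rep (modK hl hL ψ) fun A => ψ.Sat A.A default :=
  fun _ _ _ a => ψ.sat_equiv' a

end Vale.Agent.N307Z
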