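import Vale.Agent.N307Z.Final

universe u

namespace Vale.Agent.N307Z

open FirstOrder Cardinal

/-- **The geometry of the large members of a categorical class.** For every infinite cardinal `l`
there is a cardinal `μ ≥ l` such that, for every abstract elementary class `K` with `LS(K) ≤ l`
which is categorical in some `κ ≥ μ`, every member `N` of size at least `μ` has the structure of
Baldwin and Lachlan over some `P ≤_K N` of size less than `μ`. -/
theorem oldGeometry (l : Cardinal.{u}) (hl : ℵ₀ ≤ l) :
    ∃ μ : Cardinal.{u}, l ≤ μ ∧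
      ∀ (L : Language.{u, u}) (K : AEC L), K.LS ≤ l → ∀ κ, μ ≤ κ → Categorical K.mem κ →
        ∀ N, K.mem N → μ ≤ N.A.card → ∃ P, K.le P N ∧ P.A.card < μ ∧ Geometric K P N :=
  (Vale.Agent.N307Z.main l hl).imp fun _ h => ⟨h.1, h.2.2.1⟩

end Vale.Agent.N307Z
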