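import Mathlib.ModelTheory.Encoding
import Vale.Agent.N307Z.Logic

/-!
The models of a first-order theory which omit a set of types are the models of one sentence.
-/

universe u w

open FirstOrder Cardinal Set Function Language

namespace Vale.Agent.N307Z

variable {L : Language.{u, u}} {l : Cardinal.{u}}

/-- The properties which are defined by a formula. -/
def Dfn (L : Language.{u, u}) (l : Cardinal.{u}) (n : ℕ)
    (p : ∀ (M : Type w) [L.Structure M], (Fin n → M) → Prop) : Prop :=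
  ∃ ψ : Fml L l n, ∀ (M : Type w) [L.Structure M] (v : Fin n → M), ψ.Sat M v ↔ p M v

namespace Dfn

variable {n : ℕ}

theorem congr {p q : ∀ (M : Type w) [L.Structure M], (Fin n → M) → Prop} (h : Dfn L l n p)
    (hpq : ∀ (M : Type w) [L.Structure M] (v : Fin n → M), p M v ↔ q M v) : Dfn L l n q :=
  let ⟨ψ, hψ⟩ := h
  ⟨ψ, fun M _ v => (hψ M v).trans (hpq M v)⟩

theorem not {p : ∀ (M : Type w) [L.Structure M], (Fin n → M) → Prop} (h : Dfn L l n p) :
    Dfn L l n fun M _ v => ¬p M v :=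
  let ⟨ψ, hψ⟩ := h
  ⟨ψ.not, fun M _ v => not_congr (hψ M v)⟩

theorem conj {ι : Type u} (hι : #ι ≤ l)
    {p : ι → ∀ (M : Type w) [L.Structure M], (Fin n → M) → Prop} (h : ∀ i, Dfn L l n (p i)) :
    Dfn L l n fun M _ v => ∀ i, p i M v := by
  choose ψ hψ using h
  exact ⟨.and ι hι ψ, fun M _ v => forall_congr' fun i => hψ i M v⟩

theorem and (hl : ℵ₀ ≤ l) {p q : ∀ (M : Type w) [L.Structure M], (Fin n → M) → Prop}
    (hp : Dfn L l n p) (hq : Dfn L l n q) : Dfn L l n fun M _ v => p M v ∧ q M v := by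
  refine (conj (ι := ULift.{u} Bool) ((lt_aleph0_of_finite _).le.trans hl)
    (p := fun i => cond i.down p q) ?_).congr fun M _ v => ?_
  · rintro ⟨_ | _⟩
    exacts [hq, hp]
  · refine ⟨fun h => ⟨h ⟨true⟩, h ⟨false⟩⟩, fun h => ?_⟩
    rintro ⟨_ | _⟩
    exacts [h.2, h.1]

theorem all (hl : ℵ₀ ≤ l) {p : ∀ (M : Type w) [L.Structure M], (Fin (n + 1) → M) → Prop}
    (h : Dfn L l (n + 1) p) : Dfn L l n fun M _ v => ∀ x, p M (Fin.snoc v x) := by
  obtain ⟨ψ, hψ⟩ := h
  refine ⟨(Fml.many PUnit ((lt_aleph0_of_finite _).le.trans hl) ψ.not).not, fun M _ v => ?_⟩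
  refine ⟨fun h x => by_contra fun hx => h ⟨fun _ => x, fun _ _ _ => rfl, fun _ g => ?_⟩, ?_⟩
  · exact hx ((hψ M _).1 g)
  · rintro h ⟨x, -, hx⟩
    exact hx ⟨⟩ ((hψ M _).2 (h _))

theorem alls (hl : ℵ₀ ≤ l) {p : ∀ (M : Type w) [L.Structure M], (Fin n → M) → Prop}
    (h : Dfn L l n p) : Dfn L l 0 fun M _ _ => ∀ v, p M v := by
  induction n with
  | zero => exact h.congr fun M _ v => ⟨fun g w => Subsingleton.elim v w ▸ g, fun g => g v⟩
  | succ n ih =>
    refine (ih (h.all hl)).congr fun M _ _ => ⟨fun g v => ?_, fun g v x => g _⟩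
    rw [← Fin.snoc_init_self v]
    exact g _ _

theorem fo (hl : ℵ₀ ≤ l) (φ : L.BoundedFormula Empty n) :
    Dfn.{u, w} L l n fun _ _ v => φ.Realize default v := by
  have key : ∀ {n : ℕ} {M : Type w} [L.Structure M] (t : L.Term (Empty ⊕ Fin n)) (v : Fin n → M),
      (t.relabel (Sum.elim Empty.elim id)).realize v = t.realize (Sum.elim default v) := by
    intro n M _ t v
    rw [Term.realize_relabel]
    congr 1
    funext x
    rcases x with x | x
    exacts [x.elim, rfl]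
  induction φ with
  | falsum =>
    exact (conj (ι := PEmpty) ((lt_aleph0_of_finite _).le.trans hl) (p := fun _ _ _ _ => True)
      fun i => i.elim).not.congr fun M _ v => ⟨fun h => h fun _ => trivial, fun h => h.elim⟩
  | equal s t =>
    refine ⟨.eq (s.relabel (Sum.elim Empty.elim id)) (t.relabel (Sum.elim Empty.elim id)),
      fun M _ v => ?_⟩
    change _ = _ ↔ _ = _
    rw [key, key]
  | rel r t =>
    refine ⟨.rel r fun i => (t i).relabel (Sum.elim Empty.elim id), fun M _ v => ?_⟩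
    change Structure.RelMap r _ ↔ Structure.RelMap r _
    simp only [key]
  | imp a b iha ihb =>
    exact (iha.and hl ihb.not).not.congr fun M _ v =>
      ⟨fun h g => by_contra fun g' => h ⟨g, g'⟩, fun h g => g.2 (h g.1)⟩
  | all a ih => exact ih.all hl

end Dfn

theorem card_formula_le (hl : ℵ₀ ≤ l) (hL : L.card ≤ l) (n : ℕ) :
    #(L.BoundedFormula Empty n) ≤ l := by
  have h := BoundedFormula.card_le (L := L) (α := Empty)
  refine (mk_le_of_injective (sigma_mk_injective (i := n))).trans (h.trans (max_le hl ?_))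
  simpa using hL

theorem exists_sentence (hl : ℵ₀ ≤ l) (hL : L.card ≤ l) (T : L.Theory)
    (Γ : Set (Σ n : ℕ, Set (L.BoundedFormula Empty n))) :
    ∃ ψ : Fml L (2 ^ l) 0, ∀ A : Str L, ψ.Sat A.A default ↔ A.A ⊨ T ∧ Omits A Γ := by
  have h2 : l ≤ 2 ^ l := (cantor l).le
  have hl' := hl.trans h2
  have hp : ∀ (n : ℕ) (p : Set (L.BoundedFormula Empty n)),
      Dfn.{u, u + 1} L (2 ^ l) n fun _ _ v => ∀ φ : p, φ.1.Realize default v := fun n p =>
    Dfn.conj ((mk_subtype_le _).trans ((card_formula_le hl hL n).trans h2)) fun φ => Dfn.fo hl' φ.1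
  have hΓ : #Γ ≤ 2 ^ l := by
    refine (mk_subtype_le _).trans ?_
    rw [mk_sigma]
    refine (sum_le_sum _ (fun _ => 2 ^ l) fun n => ?_).trans ?_
    · rw [mk_set]
      exact power_le_power_left two_ne_zero (card_formula_le hl hL n)
    · rw [sum_const, mk_nat, lift_aleph0, Cardinal.lift_id', mul_eq_right hl' hl' aleph0_ne_zero]
  obtain ⟨ψ, hψ⟩ := (hp 0 T).and hl' (Dfn.conj hΓ fun p : Γ => (hp p.1.1 p.1.2).not.alls hl')
  refine ⟨ψ, fun A => (hψ _ _).trans (and_congr ?_ ?_)⟩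
  · rw [Theory.model_iff]
    exact ⟨fun h φ hφ => h ⟨φ, hφ⟩, fun h φ => h φ.1 φ.2⟩
  · exact ⟨fun h p hp ⟨v, hv⟩ => h ⟨p, hp⟩ v fun φ => hv φ.1 φ.2,
      fun h p v hv => h p.1 p.2 ⟨v, fun φ hφ => hv ⟨φ, hφ⟩⟩⟩

end Vale.Agent.N307Z
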